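import Vale.Agent.P204.Statement

/-!
P204: on every torus bundle over the circle, a tamed almost complex structure invariant under the
translations of the fibres has a compatible symplectic form.
-/

namespace Vale.Agent.Results.P204.TorusBundle

open Vale.Agent.P204

theorem result :
    ∀ (A : (Matrix (Fin 3) (Fin 3) ℤ)ˣ) (J : ℝ → E → E) (ω : E → E → E → ℝ),
      InvariantACS A J → ClosedTwoForm A ω → TamesFun J ω →
      ∃ ω', ClosedTwoForm A ω' ∧ TamesFun J ω' ∧ InvariantFun J ω' :=
  fun _ _ _ hJ hω hT => exists_compatible_fun hJ hω hT

end Vale.Agent.Results.P204.TorusBundle
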