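import Vale.Agent.P204.Torus.Phase2

/-!
P204: on the four-torus every smooth tamed almost complex structure has a compatible symplectic
form, with no symmetry assumed.
-/

namespace Vale.Agent.Results.P204.TorusTamedCompatible

open Vale.Agent.P204.Torus

theorem result :
    ∀ (J : V → V → V) (ω : V → V → V → ℝ), TorusACS J → TorusTwoForm ω → Tames J ω →
      ∃ ω', TorusTwoForm ω' ∧ Tames J ω' ∧ InvariantFun J ω' :=
  fun _ _ hJ hω hT => exists_compatible_torus hJ hω hT

end Vale.Agent.Results.P204.TorusTamedCompatible
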